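import Vale.Agent.P361.Asymp

/-!
# One half of Bloch's `T^{3/2}` law

For every spin `S = d/2` the spontaneous magnetisation of the three-dimensional quantum Heisenberg
ferromagnet satisfies `liminf_{β→∞} β^{3/2} (S - m_S(β)) ≥ ζ(3/2) / (8 π^{3/2} S^{3/2})`.
-/

namespace Vale.Agent.Results.P361.BlochLower

open Vale.Agent.P361 Filter Topology

theorem result (d : ℕ) (hd : 1 ≤ d) :
    (∀ β : ℝ, 0 < β → HasDerivWithinAt (pressure d β) (spontMag d β) (Set.Ioi 0) 0) ∧
    (((riemannZeta (3 / 2)).re /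
        (8 * Real.pi ^ (3 / 2 : ℝ) * ((d : ℝ) / 2) ^ (3 / 2 : ℝ)) : ℝ) : EReal) ≤
      Filter.liminf (fun β : ℝ =>
        ((β ^ (3 / 2 : ℝ) * ((d : ℝ) / 2 - spontMag d β) : ℝ) : EReal)) Filter.atTop := by
  constructor
  · intro β hβ
    exact (pressure_convex d hβ).hasDerivWithinAt_rightDeriv_of_mem_interior (by simp)
  · refine le_of_forall_lt fun c hc => ?_
    obtain ⟨c', hc1, hc2⟩ := EReal.lt_iff_exists_real_btwn.mp hc
    obtain ⟨c'', hc3, hc4⟩ := EReal.lt_iff_exists_real_btwn.mp hc2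
    have hc4' : c'' < blochConst d := by
      unfold blochConst
      exact_mod_cast hc4
    refine lt_of_lt_of_le hc1 ?_
    refine le_liminf_of_le (by isBoundedDefault) ?_
    filter_upwards [bloch_eventually hd hc4'] with β hβ
    have : c' < c'' := by exact_mod_cast hc3
    exact_mod_cast (this.trans hβ).le

end Vale.Agent.Results.P361.BlochLower
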